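import Mathlib
import Vale.Agent.Lib.P137.helper41.Defs
import Vale.Agent.Lib.P137.helper41.Main
import Vale.Agent.Lib.P137.helper37.Bridge

/-!
# P137: the gradient inequality for the centered maximal function on radially nonincreasing
Lipschitz functions

`E d` is `R^d` with the Euclidean norm, `cmax g x` is the centered Hardy-Littlewood maximal
function `sup_{r > 0} |B(x, r)|^{-1} ∫_{B(x, r)} g` of a `[0, ∞]`-valued `g`, and
`rmax d F x` is the real number `(cmax g x).toReal` for `g(z) = F(|z|)`.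

For `d ≥ 2` and `F : ℝ → ℝ` nonincreasing, Lipschitz with constant `L` and tending to `0` at
infinity, with `f(x) = F(|x|)`:
1. `Mf(x)` is finite and equals `rmax d F x`;
2. `Mf` is Lipschitz with constant `L`;
3. `Mf` is differentiable almost everywhere;
4. `∫ |∇Mf| ≤ 4^(d+1) ∫ |∇f|`.
-/

namespace Vale.Agent.Results.P137.LipschitzRadial

open Vale.Agent.Lib.P137 MeasureTheory
open scoped ENNReal NNReal

theorem result (d : ℕ) (hd : 2 ≤ d) (F : ℝ → ℝ) (hF : Antitone F) (L : ℝ≥0)
    (hL : LipschitzWith L F) (hlim : Filter.Tendsto F Filter.atTop (nhds 0)) :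
    (∀ x : E d, ENNReal.ofReal (H37.rmax d F x) =
        cmax (fun z : E d => ENNReal.ofReal (F ‖z‖)) x) ∧
      LipschitzWith L (H37.rmax d F) ∧
      (∀ᵐ x : E d, DifferentiableAt ℝ (H37.rmax d F) x) ∧
      ∫⁻ x : E d, ‖fderiv ℝ (H37.rmax d F) x‖ₑ ≤
        4 ^ (d + 1) * ∫⁻ x : E d, ‖fderiv ℝ (fun z : E d => F ‖z‖) x‖ₑ := by
  have hFe : Antitone fun t : ℝ => ENNReal.ofReal (F t) :=
    fun a b h => ENNReal.ofReal_le_ofReal (hF h)
  have hb := H37.bridge hd F hF hL hlim (4 ^ (d + 1))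
    (fun x y hxy => H41.cmax_anti (fun t : ℝ => ENNReal.ofReal (F t)) hFe x y hxy)
    (H41.weighted_bound (le_trans (by norm_num) hd) (fun t : ℝ => ENNReal.ofReal (F t)) hFe)
  exact ⟨fun x => H37.ofReal_rmax F hF x, hb.1, H37.rmax_ae_differentiableAt F hF hL, hb.2⟩

end Vale.Agent.Results.P137.LipschitzRadial
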