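import Mathlib
import Vale.Agent.Lib.P137.helper41.Defs
import Vale.Agent.Lib.P137.helper41.Main

/-!
# P137: the centered Hardy-Littlewood maximal function of a radially nonincreasing function

`E d` is `R^d` with the Euclidean norm and `cmax f x` is the centered maximal function
`sup_{r > 0} |B(x, r)|^{-1} ∫_{B(x, r)} f` of a function `f` with values in `[0, ∞]`.

For `d ≥ 2`, a nonincreasing `F : ℝ → [0, ∞]` and `f(x) = F(|x|)`:
1. `Mf = cmax f` is radially nonincreasing: `|x| ≤ |y|` implies `Mf(y) ≤ Mf(x)`;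
2. `∫ Mf(x) / |x| dx ≤ 4^(d+1) ∫ f(x) / |x| dx`.
-/

namespace Vale.Agent.Results.P137.RadialDecreasing

open Vale.Agent.Lib.P137 MeasureTheory
open scoped ENNReal

theorem result (d : ℕ) (hd : 2 ≤ d) (F : ℝ → ℝ≥0∞) (hF : Antitone F) :
    (∀ x y : E d, ‖x‖ ≤ ‖y‖ →
        cmax (fun z : E d => F ‖z‖) y ≤ cmax (fun z : E d => F ‖z‖) x) ∧
      ∫⁻ x : E d, cmax (fun z : E d => F ‖z‖) x / ENNReal.ofReal ‖x‖ ≤
        4 ^ (d + 1) * ∫⁻ x : E d, F ‖x‖ / ENNReal.ofReal ‖x‖ :=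
  ⟨fun x y hxy => H41.cmax_anti F hF x y hxy,
    H41.weighted_bound (le_trans (by norm_num) hd) F hF⟩

end Vale.Agent.Results.P137.RadialDecreasing
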